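import Crest.Agent.X212.Lix26.Defs
import Crest.Agent.X212.Cay24.Qa
import Crest.Agent.X212.Qa50.Add

/-!
# Row 212, LIX-TW (helper51): twisting an abelian point by a clutching function
-/

set_option autoImplicit false
set_option linter.unusedSectionVars false
noncomputable section
open scoped Manifold ContDiff Topology InnerProductSpace
open MeasureTheory Set Function Filter
open Crest.Agent.R208.F (Ext)

namespace Crest.Agent.X212.Tw51
open An Wz78 Pj41 Qab60 Lix26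
open Num57 hiding c1 c2
open Abel74 (fm fF RedOn)
open Eqv71 (cj opL_cj)
open Dr59 (dM Dg)
open Line51 (ang CSm)
open Sob92 (dv)

variable {E : Type} [NormedAddCommGroup E] [NormedSpace ℝ E] [FiniteDimensional ℝ E]
  [MeasurableSpace E] [BorelSpace E]
  {HM : Type} [TopologicalSpace HM] {I : ModelWithCorners ℝ E HM} [I.Boundaryless]
  {M : Type} [TopologicalSpace M] [ChartedSpace HM M] [IsManifold I ∞ M] [T2Space M]
  [MeasurableSpace M] [BorelSpace M] [SecondCountableTopology M]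
  {ι : Type} [Fintype ι] {lam : Type} [Fintype lam] {B : Base M ι lam} {G : Geo I M ι lam}
  {r : ℕ} {Ω O : Set M} {c : Cfg M ι lam r} {ξ : M → c.m.A} {A A' : M → Ext E} {x : M}

/-- cutting a local one-form off -/
theorem exists_fo (hO : IsOpen O) (hs : Dr59.Sm I O A) (hd : Dg 1 O A) (hx : x ∈ O) :
    ∃ a, Fo I 1 a ∧ Off O a ∧ a =ᶠ[𝓝 x] A := by
  obtain ⟨χ, h1, -, h3, -, h5⟩ := Met55.exists_cut (I := I) isCompact_singleton hO
    (singleton_subset_iff.2 hx)
  have z : ∀ y ∉ O, χ • A =ᶠ[𝓝 y] 0 := fun y hy =>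
    (notMem_tsupport_iff_eventuallyEq.1 fun k => hy (h3 k)).mono fun w hw => by
      simp only [Pi.smul_apply', hw, Pi.zero_apply, zero_smul]
  refine ⟨χ • A, ⟨fun y => ?_, fun y => ?_⟩, fun y hy => (z y hy).eq_of_nhds,
    (h5 x rfl).mono fun w hw => by simp only [Pi.smul_apply', hw, Pi.one_apply, one_smul]⟩ <;>
    by_cases hy : y ∈ O
  · exact Dr59.CAt.fsmul le_rfl (h1 y) (hs y hy)
  · exact Dr59.cAt_zero.congr (z y hy)
  · exact (hd y hy).smul _
  · rw [(z y hy).eq_of_nhds]; exact R208.FI.IsDeg.zero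

/-- the connection of `ada` -/
abbrev aW (F : Fr I M ι) (c : Cfg M ι lam r) (ξ : M → c.m.A) (A : M → Ext E) : c.m.Cn :=
  (ada F c ξ A).W

theorem ada_W (F : Fr I M ι) (a : ι) (x : M) :
    aW F c ξ A a x = c.W a x + k1 F A a x • opL (ξ x) := by
  rw [← map_smul]; rfl

/-- the angular form is the logarithmic derivative -/
theorem dv_circ {e : M → Circle} (he : CSm I e x) (F : Fr I M ι) (a : ι) :
    F.D a (fun y => (e y : ℂ)) x = (k1 F (ang I e) a x : ℂ) * Complex.I * e x := by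
  have s : FSm I (fun y => (e y : ℂ)) x := (Line51.contMDiff_coe _).comp x he
  have k : k1 F (ang I e) a x = (star (e x : ℂ) * F.D a (fun y => (e y : ℂ)) x).im := by
    rw [k1, Line51.ang, Line51.th, e1_io, Line51.tl_eq_sum]
    simp only [Finset.univ_unique, Finset.sum_singleton]
    rfl
  have u : ∀ y, star (e y : ℂ) * e y = 1 := fun y => by
    rw [Complex.star_def, Complex.conj_mul', Circle.norm_coe]; simp
  have d := Line51.dc_mul (I := I) (f := fun y => star (e y : ℂ))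
    (Complex.conjCLE.contDiff.contDiffAt.comp_contMDiffAt s) s (ee F x a)
  rw [funext u, Line51.dc_const, Line51.dc_star s] at d
  change (0 : ℂ) = star (F.D a (fun y => (e y : ℂ)) x) * _ + _ * F.D a (fun y => (e y : ℂ)) x at d
  generalize F.D a (fun y => (e y : ℂ)) x = w at d k
  have r : (star (e x : ℂ) * w).re = 0 := by
    have := congrArg Complex.re d
    simp only [Complex.star_def, Complex.add_re, Complex.mul_re, Complex.conj_re, Complex.conj_im,
      Complex.zero_re] at this ⊢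
    linarith
  have : star (e x : ℂ) * w = (k1 F (ang I e) a x : ℂ) * Complex.I := by
    rw [k, ← Complex.re_add_im (star (e x : ℂ) * w), r]; simp
  rw [← this, mul_assoc, mul_comm w, ← mul_assoc, u, one_mul]

variable (hB : B.OK I) (hG : G.OK B) (hΩ : IsClopen Ω) (h : Ab B G Ω c ξ)
include hB hG hΩ h

/-- adding a local one-form -/
theorem loc (hO : IsOpen O) (k : O ⊆ Ω) (hs : Dr59.Sm I O A) (hd : Dg 1 O A) :
    ConnOn B G c.m (ada G.F c ξ A).W (O ∪ Ωᶜ) ∧ RedOn G.F c.m (ada G.F c ξ A).W O ξ ∧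
      ∀ x ∈ O, fm G.F c.m (ada G.F c ξ A).W ξ x = fm G.F c.m c.W ξ x + dM I A x := by
  have key : ∀ x ∈ O, ∃ a U, IsOpen U ∧ x ∈ U ∧ Ab B G Ω (ada G.F c ξ a) ξ ∧
      fm G.F c.m (ada G.F c ξ a).W ξ x = fm G.F c.m c.W ξ x + dM I A x ∧
      ∀ i, ∀ y ∈ U, (ada G.F c ξ A).W i y = (ada G.F c ξ a).W i y := fun x hx => by
    obtain ⟨a, h1, h2, h3⟩ := exists_fo hO hs hd hx
    obtain ⟨U, u1, u2, u3⟩ := eventually_nhds_iff.1 h3
    obtain ⟨k1, k2⟩ := (Qa50.addStmt I M ι lam r B G Ω c ξ hB hG hΩ h).1 a h1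
      fun y hy => h2 y fun w => hy (k w)
    exact ⟨a, U, u2, u3, k1, by rw [k2, Pi.add_apply, Dr59.dM_congr h3],
      fun i y hy => (ada_W _ _ _).trans (Eq.trans (by simp only [Num57.k1, u1 y hy]) (ada_W _ _ _).symm)⟩
  refine ⟨ConnOn.of_local fun x hx => hx.elim (fun hx => ?_) fun hx => ⟨_, hx,
    (IsConn.on h.adm.conn _).congr hΩ.compl.2 fun i y hy => (ada_W _ _ _).trans <| by
      rw [h.rd.off y hy, map_zero, smul_zero, add_zero]⟩,
    ⟨fun x hx => h.rd.sm x (k hx), fun x hx => h.rd.mem x (k hx), fun x hx => h.rd.sq x (k hx),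
      fun x hx i => ?_⟩, fun x hx => ?_⟩ <;> obtain ⟨a, U, u1, u2, u3, u4, u5⟩ := key x hx
  · exact ⟨U, u2, (IsConn.on u3.adm.conn U).congr u1 u5⟩
  · refine Eq.trans ?_ (u3.rd.par x (k hx) i)
    simp only [nab, Md.adW, u5 i x u2]
    rfl
  · rw [← u4]
    simp only [Abel74.fm, fm2_apply, fF, Loc66.Fg_congr (m := c.m) (F := G.F)
      fun i => mem_of_superset (u1.mem_nhds u2) (u5 i)]

/-- the clutching function is a parallel isomorphism which fixes `ξ` -/
theorem clutch {e : M → Circle} (k : O ⊆ Ω)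
    (he : ∀ x ∈ O, CSm I e x ∧ A' x = A x + ang I e x) {g : M → En (Fin c.m.N)}
    (hg : g = fun x => (e x : ℂ).re • c.m.p x + (e x : ℂ).im • opL (ξ x)) :
    Iso0 I c.m c.m O g ∧ Par0 G.F (aW G.F c ξ A') (aW G.F c ξ A) O g ∧
      ∀ x ∈ O, cj (g x) (ξ x) = ξ x := by
  have H := h.adm.ok
  have R := h.rd
  have se : ∀ x ∈ O, FSm I (fun y => (e y : ℂ)) x := fun x hx =>
    (Line51.contMDiff_coe _).comp x (he x hx).1
  have s1 : ∀ x ∈ O, FSm I (fun y => (e y : ℂ).re) x := fun x hx =>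
    Complex.reCLM.contDiff.contDiffAt.comp_contMDiffAt (se x hx)
  have s2 : ∀ x ∈ O, FSm I (fun y => (e y : ℂ).im) x := fun x hx =>
    Complex.imCLM.contDiff.contDiffAt.comp_contMDiffAt (se x hx)
  have n : ∀ x, (e x : ℂ).re * (e x : ℂ).re + (e x : ℂ).im * (e x : ℂ).im = 1 := fun x => by
    rw [← Complex.normSq_apply, Circle.normSq_coe]
  have a : ∀ x ∈ O, ad (g x) = (e x : ℂ).re • c.m.p x - (e x : ℂ).im • opL (ξ x) := fun x hx => by
    simp only [hg, ad_trn, map_add, map_smul, Sym.trn (H.psym x), Skw.trn (g_skw (R.mem x (k hx))),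
      smul_neg, sub_eq_add_neg]
  have cm : ∀ x ∈ O, ∀ T : En (Fin c.m.N), T * c.m.p x = c.m.p x * T →
      T * opL (ξ x) = opL (ξ x) * T → T ∘L g x = g x ∘L T := fun x _ T h1 h2 => by
    change T * _ = _ * T
    simp only [hg, mul_add, add_mul, mul_smul_comm, smul_mul_assoc, h1, h2]
  have al : ∀ x ∈ O, c.m.p x * c.m.p x = c.m.p x ∧ c.m.p x * opL (ξ x) = opL (ξ x) ∧
      opL (ξ x) * c.m.p x = opL (ξ x) ∧ opL (ξ x) * opL (ξ x) = -c.m.p x := fun x hx =>
    ⟨H.pidem x, g_p (R.mem x (k hx)), g_p' H (R.mem x (k hx)), R.sq x (k hx)⟩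
  have t : ∀ x ∈ O, g x ∘L ad (g x) = c.m.p x := fun x hx => by
    obtain ⟨a1, a2, a3, a4⟩ := al x hx
    rw [a x hx, ← ContinuousLinearMap.mul_def]
    simp only [hg, mul_sub, add_mul, mul_smul_comm, smul_mul_assoc, a1, a2, a3, a4]
    conv_rhs => rw [← one_smul ℝ (c.m.p x), ← n x]
    module
  refine ⟨⟨fun x hx => hg ▸ ((s1 x hx).smul (H.sp x)).add ((s2 x hx).smul (R.sm_opL (k hx))),
    fun x hx => CIso.of_prj (H.pidem x) ?_ (t x hx),
    fun x hx => cm x hx _ (H.Jp x) (g_J (R.mem x (k hx))),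
    fun x hx b => cm x hx _ (((H.cl x).pr b).trans ((H.cl x).pl b).symm) (g_ρ (R.mem x (k hx)) b),
    fun x hx s => cm x hx _ ((j_p H x s).trans (H.pj x s).symm) (g_j (R.mem x (k hx)) s)⟩,
    fun x hx i => ?_, fun x hx => opL_inj ?_⟩
  · obtain ⟨a1, a2, a3, a4⟩ := al x hx
    rw [a x hx, ← ContinuousLinearMap.mul_def]
    simp only [hg, mul_add, sub_mul, mul_smul_comm, smul_mul_assoc, a1, a2, a3, a4]
    conv_rhs => rw [← one_smul ℝ (c.m.p x), ← n x]
    module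
  · obtain ⟨a1, a2, a3, a4⟩ := al x hx
    have d := dv_circ (he x hx).1 G.F i
    have d1 : dv I (G.F.e i) (fun y => (e y : ℂ).re) x = -(k1 G.F (ang I e) i x * (e x : ℂ).im) :=
      (Sob92.dv_clm Complex.reCLM (se x hx).md).trans ((congrArg Complex.re d).trans (by simp))
    have d2 : dv I (G.F.e i) (fun y => (e y : ℂ).im) x = k1 G.F (ang I e) i x * (e x : ℂ).re :=
      (Sob92.dv_clm Complex.imCLM (se x hx).md).trans ((congrArg Complex.im d).trans (by simp))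
    have p1 : dv I (G.F.e i) c.m.p x = -(c.W i x * c.m.p x - c.m.p x * c.W i x) :=
      eq_neg_of_add_eq_zero_left (h.adm.conn.cc.par i x)
    have p2 : dv I (G.F.e i) (fun y => opL (ξ y)) x = -(c.W i x * opL (ξ x) - opL (ξ x) * c.W i x) :=
      eq_neg_of_add_eq_zero_left (R.nE (k hx) i)
    have e1 : k1 G.F A' i x = k1 G.F A i x + k1 G.F (ang I e) i x := by
      simp only [Num57.k1, (he x hx).2, e1_add]
    rw [Pre.D_def, ← ContinuousLinearMap.mul_def, ← ContinuousLinearMap.mul_def, hg, dv_add' (u := fun y => (e y : ℂ).re • c.m.p y)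
      (v := fun y => (e y : ℂ).im • opL (ξ y)) ((s1 x hx).smul (H.sp x))
      ((s2 x hx).smul (R.sm_opL (k hx))),
      Sob92.dv_smul (s1 x hx).md (SA.md (H.sp x)), Sob92.dv_smul (s2 x hx).md (R.sm_opL (k hx)).md,
      d1, d2, p1, p2, ada_W, ada_W, e1]
    simp only [mul_add, add_mul, mul_smul_comm, smul_mul_assoc, a2, a3, a4]
    module
  · obtain ⟨a1, a2, a3, a4⟩ := al x hx
    rw [opL_cj, ← ad_trn, ← ContinuousLinearMap.comp_assoc, ← cm x hx _ (a3.trans a2.symm) rfl,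
      ContinuousLinearMap.comp_assoc, t x hx]
    exact a3

omit hB hG hΩ h in
variable (I M ι lam) in
/-- **LIX-TW** -/
theorem tw : TwStmt I M ι lam := fun r B G Ω c ξ O e A hB hG hΩ h hO hU hA he => by
  classical
  have := Sob92.scs (I := I) (M := M)
  have k : ∀ b, O b ⊆ Ω := fun b => by
    cases b
    exacts [hU ▸ subset_union_left, hU ▸ subset_union_right]
  have H := h.adm.ok
  have L := fun b => loc hB hG hΩ h (hO b) (k b) (hA b).1 (hA b).2
  have o2 : IsOpen (O false ∪ Ωᶜ) := (hO false).union hΩ.compl.2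
  have s : O true ∩ (O false ∪ Ωᶜ) ⊆ O false ∩ O true := fun x hx =>
    ⟨hx.2.resolve_right (not_not.2 (k true hx.1)), hx.1⟩
  obtain ⟨g1, g2, g3⟩ := clutch hB hG hΩ h (inter_subset_left.trans (k false)) he rfl
  have cv : ∀ x, x ∈ O true ∨ x ∈ O false ∪ Ωᶜ := fun x => (em (x ∈ Ω)).elim
    (fun hx => (hU.ge hx).elim (fun k => .inr (.inl k)) .inl) fun hx => .inr (.inr hx)
  obtain ⟨n, a, a', X, h1, h2, h3, h4, h5, h6, h7⟩ := Loc66.glue2 (hO true) o2 cv (OK.on H _)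
    (OK.on H _) hG.P ((L true).1.mono subset_union_left) (L false).1 (g1.mono s) (g2.mono s)
  obtain ⟨v, v0, v1⟩ : ∃ v : Bool → M → CL c.m.V n.V, v false = a' ∧ v true = a :=
    ⟨fun b => Bool.rec a' a b, rfl, rfl⟩
  have iv : ∀ b, Iso0 I c.m n (O b) (v b) ∧ Par0 G.F (ada G.F c ξ (A b)).W X (O b) (v b) := fun b => by
    cases b
    exacts [v0 ▸ ⟨h4.mono subset_union_left, h6.mono subset_union_left⟩, v1 ▸ ⟨h3, h5⟩]
  obtain ⟨η, e1, e2⟩ : ∃ η : M → n.A, (∀ b, ∀ x ∈ O b, η x = cj (v b x) (ξ x)) ∧ Off Ω η := by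
    refine ⟨fun x => if x ∈ O true then cj (a x) (ξ x) else cj (a' x) (ξ x), fun b x hx => ?_,
      fun x hx => by simp only [h.rd.off x hx, map_zero, ite_self]⟩
    beta_reduce
    cases b
    · rw [v0]
      split_ifs with w
      · rw [← h7 x ⟨w, .inl hx⟩, ← Eqv71.cj_cj, g3 x ⟨hx, w⟩]
      · rfl
    · rw [v1, if_pos hx]
  have ev : ∀ b, ∀ x ∈ O b, η =ᶠ[𝓝 x] fun x => cj (v b x) (ξ x) := fun b x hx =>
    mem_of_superset ((hO b).mem_nhds hx) (e1 b)
  have R := fun b => Cay24.redOn_iso (iv b).1 (OK.on H _) (OK.on h1 _)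
    ((L b).1.mono subset_union_left) (IsConn.on h2 _) (iv b).2 (L b).2.1
  have c2 : ∀ x ∈ Ω, ∃ b, x ∈ O b := fun x hx => (hU.ge hx).elim (⟨_, ·⟩) (⟨_, ·⟩)
  have z : ∀ x ∈ Ω, a' x (c.Φ x) = 0 := fun x hx => by rw [h.z x hx, map_zero]
  refine ⟨⟨n, X, fun x => a' x (c.Φ x), c.z⟩, η, v, 1, ⟨⟨h1, h2, fun x => ?_, fun x => ?_, h.adm.z⟩,
    ⟨⟨fun x hx => ?_, fun x hx => ?_, fun x hx => ?_, fun x hx i => ?_⟩, hΩ.2, e2⟩, z⟩,
    .inl rfl, fun b => ⟨(iv b).1, (iv b).2⟩, e1, fun x hx => ?_, fun b x hx => ?_⟩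
  · by_cases hx : x ∈ Ω
    · exact (contMDiffAt_const (c := 0)).congr_of_eventuallyEq (mem_of_superset (hΩ.2.mem_nhds hx) z)
    · exact (h4.su x (.inr hx)).clm_apply (h.adm.sm x)
  · change n.pp B x (a' x (c.Φ x)) = a' x (c.Φ x)
    by_cases hx : x ∈ Ω
    · rw [z x hx, map_zero]
    · rw [← ContinuousLinearMap.comp_apply, Cay24.iso_pp h4 (.inr hx),
        ContinuousLinearMap.comp_apply, h.adm.pos x]
  · obtain ⟨b, hb⟩ := c2 x hx
    exact ((R b).sm x hb).congr_of_eventuallyEq (ev b x hb)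
  · obtain ⟨b, hb⟩ := c2 x hx
    exact e1 b x hb ▸ (R b).mem x hb
  · obtain ⟨b, hb⟩ := c2 x hx
    exact e1 b x hb ▸ (R b).sq x hb
  · obtain ⟨b, hb⟩ := c2 x hx
    exact (nab_congr i (ev b x hb)).trans ((R b).par x hb i)
  · rw [v0, v1, ← h7 x ⟨hx.2, .inl hx.1⟩, zpow_one, csE]
    simp only [ContinuousLinearMap.comp_add, ContinuousLinearMap.comp_smul,
      (h4.iso x (.inl hx.1)).idem]
    rfl
  · rw [← (L b).2.2 x hx]
    simp only [Abel74.fm, fm2_apply, fF, e1 b x hx, Loc66.Fg_loc (iv b).1 (hO b) (OK.on H _)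
      (OK.on h1 _) ((L b).1.sm · x (.inl hx)) (h2.cc.sm · x) (iv b).2 hx,
      Loc66.inner_cj_g (iv b).1 hx _ (h.rd.mem x (k b hx))]

end Crest.Agent.X212.Tw51
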